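import Vale.Agent.P305.MM.Model
import Mathlib

/-!
# P305: the word RAM with a program counter, jumps and words of `w` bits
-/

namespace Vale.Agent.P305W88

open Vale.Agent.P305 MeasureTheory

/-- Instructions of the word RAM; `d`, `a`, `b` are names of registers, `c` is a constant and `l`
is a line number of the program. -/
inductive Ins
  | const (d c : ℕ)
  | op (o : Op) (d a b : ℕ)
  | load (d a : ℕ)
  | store (a b : ℕ)
  | coin (d : ℕ)
  | jump (l : ℕ)
  | branch (t : Test) (l : ℕ)

/-- The operations on words of `w` bits: arithmetic modulo `2 ^ w` on unsigned words, bitwise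
operations and shifts. -/
def wordOp {w : ℕ} : Op → BitVec w → BitVec w → BitVec w
  | .add, x, y => x + y
  | .sub, x, y => x - y
  | .mul, x, y => x * y
  | .div, x, y => x / y
  | .mod, x, y => x % y
  | .land, x, y => x &&& y
  | .lor, x, y => x ||| y
  | .xor, x, y => x ^^^ y
  | .shl, x, y => x <<< y.toNat
  | .shr, x, y => x >>> y.toNat

/-- The comparisons of two registers (as unsigned words). -/
def wordTest {w : ℕ} : Test → (ℕ → BitVec w) → Bool
  | .lt a b, r => decide (r a < r b)
  | .eq a b, r => decide (r a = r b)
  | .ne a b, r => decide (r a ≠ r b)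

/-- A configuration: program counter, registers, the `2 ^ w` memory cells (addressed by words),
and the number of random bits drawn so far. -/
structure Cfg (w : ℕ) where
  pc : ℕ
  reg : ℕ → BitVec w
  mem : BitVec w → BitVec w
  drawn : ℕ

/-- The effect of one instruction; the random bits are `ω 0, ω 1, …`. -/
def exec {w : ℕ} (ω : ℕ → Bool) (c : Cfg w) : Ins → Cfg w
  | .const d x => { c with pc := c.pc + 1, reg := Function.update c.reg d (BitVec.ofNat w x) }
  | .op o d a b =>
      { c with pc := c.pc + 1, reg := Function.update c.reg d (wordOp o (c.reg a) (c.reg b)) }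
  | .load d a => { c with pc := c.pc + 1, reg := Function.update c.reg d (c.mem (c.reg a)) }
  | .store a b => { c with pc := c.pc + 1, mem := Function.update c.mem (c.reg a) (c.reg b) }
  | .coin d =>
      ⟨c.pc + 1, Function.update c.reg d (if ω c.drawn then 1 else 0), c.mem, c.drawn + 1⟩
  | .jump l => { c with pc := l }
  | .branch t l => { c with pc := if wordTest t c.reg then l else c.pc + 1 }

/-- One step of the program `P`: the instruction in line `pc` is executed; if there is no such
line, the machine has halted and nothing changes. -/
def step {w : ℕ} (P : List Ins) (ω : ℕ → Bool) (c : Cfg w) : Cfg w :=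
  match P[c.pc]? with
  | some i => exec ω c i
  | none => c

/-- The configuration after `t` steps on an input written in the first memory cells (all other
cells and all registers being `0`). -/
def run (w : ℕ) (P : List Ins) (ω : ℕ → Bool) (input : List ℕ) (t : ℕ) : Cfg w :=
  (step P ω)^[t] ⟨0, fun _ => 0, fun a => BitVec.ofNat w (input.getD a.toNat 0), 0⟩

/-- The memory holds a maximum matching of `G`: cell `v` holds `u + 1` if `v` is matched to `u`,
and `0` if `v` is not matched. -/
def Outputs {w n : ℕ} (G : SimpleGraph (Fin n)) (c : Cfg w) : Prop :=
  ∃ M : G.Subgraph, IsMaximumMatching G M ∧ Represents (fun a => (c.mem (BitVec.ofNat w a)).toNat) M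

/-- Independent fair random bits. -/
noncomputable def coins : Measure (ℕ → Bool) :=
  Measure.infinitePi fun _ => (PMF.uniformOfFintype Bool).toMeasure

/-- With words of any size `w ≥ k log₂ (n + 2)`: for every graph `G` with `n` vertices and `m`
edges, given by adjacency lists, the input fits into the memory and there is a number `t` of steps
such that `P` has halted after `t` steps whatever the random bits are, with probability at least
`2 / 3` its output is a maximum matching of `G`, and the time, that is `t` plus one unit for each
word of the input and each of the `n` words of the output, is at most `T n m`. -/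
def Solves (P : List Ins) (k : ℕ) (T : ℕ → ℕ → ℕ) : Prop :=
  ∀ (n : ℕ) (G : SimpleGraph (Fin n)) (L : AdjLists G) (w : ℕ), (n + 2) ^ k ≤ 2 ^ w →
    (L.encode.length ≤ 2 ^ w ∧ ∀ x ∈ L.encode, x < 2 ^ w) ∧
    ∃ t : ℕ, L.encode.length + t + n ≤ T n G.edgeSet.ncard ∧
      (∀ ω, P.length ≤ (run w P ω L.encode t).pc) ∧
      MeasurableSet {ω | Outputs G (run w P ω L.encode t)} ∧
      2 / 3 ≤ coins {ω | Outputs G (run w P ω L.encode t)}

end Vale.Agent.P305W88
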