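import Vale.Agent.P305W88.Defs

/-!
# P305: compilation of structured programs to the word RAM with jumps
-/

namespace Vale.Agent.P305W88

open Vale.Agent.P305 Vale.Agent.P305.MM

/-- the code of an operation placed at line `l` (subtraction is truncated at zero) -/
def compOp (o : Op) (d a b l : ℕ) : List Ins :=
  [.branch (.lt a b) (l + 3), .op o d a b, .jump (l + 4),
    match o with
    | .sub => .const d 0
    | _ => .op o d a b]

/-- the length of the code -/
def size : RProg → ℕ
  | .const _ _ => 1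
  | .op _ _ _ _ => 4
  | .load _ _ => 1
  | .store _ _ => 1
  | .coin _ => 1
  | .seq p q => size p + size q
  | .ite _ p q => 2 + size q + size p
  | .loop _ p => 3 + size p

/-- the code of a program placed at line `l` -/
def comp : RProg → ℕ → List Ins
  | .const d c, _ => [.const d c]
  | .op o d a b, l => compOp o d a b l
  | .load d a, _ => [.load d a]
  | .store a b, _ => [.store a b]
  | .coin d, _ => [.coin d]
  | .seq p q, l => comp p l ++ comp q (l + size p)
  | .ite c p q, l => .branch c (l + 2 + size q) ::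
      (comp q (l + 1) ++ .jump (l + 2 + size q + size p) :: comp p (l + 2 + size q))
  | .loop c p, l => .branch c (l + 2) :: .jump (l + 3 + size p) :: (comp p (l + 2) ++ [.jump l])

theorem length_comp (p : RProg) : ∀ l, (comp p l).length = size p := by
  induction p with
  | seq p q hp hq => intro l; simp [comp, size, hp, hq]
  | ite c p q hp hq => intro l; simp [comp, size, hp, hq]; omega
  | loop c p hp => intro l; simp [comp, size, hp]; omega
  | _ => intro l; simp [comp, size, compOp]

/-- the list `Q` stands in `P` from line `l` on -/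
def At (P : List Ins) (l : ℕ) (Q : List Ins) : Prop := ∀ j < Q.length, P[l + j]? = Q[j]?

theorem At.head {P Q : List Ins} {l : ℕ} {i : Ins} (h : At P l (i :: Q)) : P[l]? = some i := by
  simpa using h 0 (by simp)

theorem At.tail {P Q : List Ins} {l : ℕ} {i : Ins} (h : At P l (i :: Q)) : At P (l + 1) Q := by
  intro j hj
  have := h (j + 1) (by simpa using hj)
  rw [List.getElem?_cons_succ] at this
  rw [← this]
  congr 1
  omega

theorem At.left {P Q R : List Ins} {l : ℕ} (h : At P l (Q ++ R)) : At P l Q := by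
  intro j hj
  rw [h j (by simp; omega), List.getElem?_append_left hj]

theorem At.right {P Q R : List Ins} {l : ℕ} (h : At P l (Q ++ R)) : At P (l + Q.length) R := by
  intro j hj
  have := h (Q.length + j) (by simp; omega)
  rw [List.getElem?_append_right (by omega), Nat.add_sub_cancel_left] at this
  rw [← this, Nat.add_assoc]

variable {w : ℕ}

/-- the configuration `c` represents the state `s` -/
structure Rel (c : Cfg w) (s : State) (l i : ℕ) : Prop where
  pc : c.pc = l
  reg : ∀ r, (c.reg r).toNat = s.reg r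
  mem : ∀ a, (c.mem a).toNat = s.mem a.toNat
  drawn : c.drawn = i

theorem step_eq {P : List Ins} {ω : ℕ → Bool} {c : Cfg w} {i : Ins} (h : P[c.pc]? = some i) :
    step P ω c = exec ω c i := by
  rw [step, h]

theorem test_iff {c : Cfg w} {s : State} (h : ∀ r, (c.reg r).toNat = s.reg r) (t : Test) :
    wordTest t c.reg = true ↔ t.holds s.reg := by
  cases t with
  | lt a b => simp [wordTest, Test.holds, BitVec.lt_def, h]
  | eq a b => simp [wordTest, Test.holds, ← h, BitVec.toNat_inj]
  | ne a b => simp [wordTest, Test.holds, ← h, BitVec.toNat_inj]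

theorem wordOp_toNat (o : Op) (x y : BitVec w) (h : o.eval x.toNat y.toNat < 2 ^ w)
    (hs : o = .sub → y.toNat ≤ x.toNat) : (wordOp o x y).toNat = o.eval x.toNat y.toNat := by
  cases o with
  | add => simpa [wordOp, Op.eval] using Nat.mod_eq_of_lt h
  | sub =>
    simp only [wordOp, Op.eval]
    exact BitVec.toNat_sub_of_le (BitVec.le_def.2 (hs rfl))
  | mul => simpa [wordOp, Op.eval] using Nat.mod_eq_of_lt h
  | div => simp [wordOp, Op.eval]
  | mod => simp [wordOp, Op.eval]
  | land => simp [wordOp, Op.eval]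
  | lor => simp [wordOp, Op.eval]
  | xor => simp [wordOp, Op.eval]
  | shl =>
    simp only [wordOp, Op.eval] at h ⊢
    rw [BitVec.toNat_shiftLeft, Nat.mod_eq_of_lt h]
  | shr => simp [wordOp, Op.eval]

theorem Rel.upd {c : Cfg w} {s : State} {l i : ℕ} (h : Rel c s l i) (d : ℕ) {x : BitVec w} {v : ℕ}
    (hx : x.toNat = v) (r : ℕ) :
    (Function.update c.reg d x r).toNat = Function.update s.reg d v r := by
  by_cases hr : r = d
  · subst hr
    simp [hx]
  · simp [Function.update_of_ne hr, h.reg]

/-- `c'` is reached from `c` in at most `t` steps -/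
def Reach (P : List Ins) (ω : ℕ → Bool) (c : Cfg w) (t : ℕ) (c' : Cfg w) : Prop :=
  ∃ u ≤ t, (step P ω)^[u] c = c'

theorem Reach.trans {P : List Ins} {ω : ℕ → Bool} {c c' c'' : Cfg w} {t t' : ℕ}
    (h : Reach P ω c t c') (h' : Reach P ω c' t' c'') : Reach P ω c (t + t') c'' := by
  obtain ⟨u, hu, rfl⟩ := h
  obtain ⟨u', hu', rfl⟩ := h'
  exact ⟨u' + u, by omega, Function.iterate_add_apply _ _ _ _⟩

theorem Reach.mono {P : List Ins} {ω : ℕ → Bool} {c c' : Cfg w} {t t' : ℕ}
    (h : Reach P ω c t c') (ht : t ≤ t') : Reach P ω c t' c' := by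
  obtain ⟨u, hu, h⟩ := h
  exact ⟨u, hu.trans ht, h⟩

theorem Reach.one {P : List Ins} {ω : ℕ → Bool} {c : Cfg w} {i : Ins} {l : ℕ} (hc : c.pc = l)
    (h : P[l]? = some i) : Reach P ω c 1 (exec ω c i) :=
  ⟨1, le_rfl, step_eq (hc ▸ h)⟩

theorem Rel.jump {c : Cfg w} {s : State} {l i : ℕ} (h : Rel c s l i) (ω : ℕ → Bool) (l' : ℕ) :
    Rel (exec ω c (.jump l')) s l' i := ⟨rfl, h.reg, h.mem, h.drawn⟩

theorem Rel.branch_pos {c : Cfg w} {s : State} {l i : ℕ} (h : Rel c s l i) (ω : ℕ → Bool)
    {t : Test} (ht : t.holds s.reg) (l' : ℕ) : Rel (exec ω c (.branch t l')) s l' i :=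
  ⟨by simp [exec, (test_iff h.reg t).2 ht], h.reg, h.mem, h.drawn⟩

theorem Rel.branch_neg {c : Cfg w} {s : State} {l i : ℕ} (h : Rel c s l i) (ω : ℕ → Bool)
    {t : Test} (ht : ¬ t.holds s.reg) (l' : ℕ) : Rel (exec ω c (.branch t l')) s (l + 1) i :=
  ⟨by simp [exec, mt (test_iff h.reg t).1 ht, h.pc], h.reg, h.mem, h.drawn⟩

theorem Rel.op {c : Cfg w} {s : State} {l i : ℕ} (h : Rel c s l i) (ω : ℕ → Bool) (o : Op)
    (d a b : ℕ) (hv : o.eval (s.reg a) (s.reg b) < 2 ^ w) (hs : o = .sub → s.reg b ≤ s.reg a) :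
    Rel (exec ω c (.op o d a b)) ⟨Function.update s.reg d (o.eval (s.reg a) (s.reg b)), s.mem⟩
      (l + 1) i := by
  refine ⟨by simp [exec, h.pc], h.upd d ?_, h.mem, h.drawn⟩
  rw [← h.reg, ← h.reg] at hv hs ⊢
  exact wordOp_toNat o _ _ hv hs

theorem Rel.const {c : Cfg w} {s : State} {l i : ℕ} (h : Rel c s l i) (ω : ℕ → Bool)
    (d x : ℕ) (hv : x < 2 ^ w) :
    Rel (exec ω c (.const d x)) ⟨Function.update s.reg d x, s.mem⟩ (l + 1) i :=
  ⟨by simp [exec, h.pc], h.upd d (by simpa using Nat.mod_eq_of_lt hv), h.mem, h.drawn⟩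

theorem sim {W : ℕ} (hW : W < 2 ^ w) {ω : ℕ → Bool} {P : List Ins} {p : RProg} {s s' : State}
    {i t i' : ℕ} (h : RExec W ω p s i t s' i') : ∀ (l : ℕ) (c : Cfg w), At P l (comp p l) →
    Rel c s l i → ∃ c', Reach P ω c (3 * t) c' ∧ Rel c' s' (l + size p) i' := by
  induction h with
  | const s i d x hx =>
    intro l c hA hR
    exact ⟨_, (Reach.one hR.pc hA.head).mono (by omega), hR.const ω d x (hx.trans_lt hW)⟩
  | op s i o d a b hv =>
    intro l c hA hR
    have h0 := Reach.one (ω := ω) hR.pc hA.head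
    by_cases hlt : s.reg a < s.reg b
    · have hR1 := hR.branch_pos ω (t := .lt a b) hlt (l + 3)
      have h1 := h0.trans (Reach.one (ω := ω) hR1.pc hA.tail.tail.tail.head)
      refine ⟨_, h1.mono (by omega), ?_⟩
      by_cases ho : o = .sub
      · subst ho
        have h2 := hR1.const ω d 0 (Nat.two_pow_pos w)
        have h3 : Op.sub.eval (s.reg a) (s.reg b) = 0 := Nat.sub_eq_zero_of_le hlt.le
        rw [h3]
        exact h2
      · have h2 := hR1.op ω o d a b (hv.trans_lt hW) fun h => absurd h ho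
        cases o <;> first | exact h2 | exact absurd rfl ho
    · have hR1 := hR.branch_neg ω (t := .lt a b) hlt (l + 3)
      have hR2 := hR1.op ω o d a b (hv.trans_lt hW) fun _ => not_lt.1 hlt
      have h1 := (h0.trans (Reach.one (ω := ω) hR1.pc hA.tail.head)).trans
        (Reach.one (ω := ω) hR2.pc hA.tail.tail.head)
      exact ⟨_, h1, hR2.jump ω _⟩
  | load s i d a =>
    intro l c hA hR
    refine ⟨_, (Reach.one hR.pc hA.head).mono (by omega), by simp [exec, hR.pc, size],
      hR.upd d ?_, hR.mem, hR.drawn⟩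
    rw [hR.mem, hR.reg]
  | store s i a b =>
    intro l c hA hR
    refine ⟨_, (Reach.one hR.pc hA.head).mono (by omega), by simp [exec, hR.pc, size],
      hR.reg, fun x => ?_, hR.drawn⟩
    by_cases hx : x = c.reg a
    · subst hx
      simp [exec, hR.reg]
    · have h1 : x.toNat ≠ s.reg a := by
        rw [← hR.reg]
        exact fun h => hx (BitVec.toNat_inj.1 h)
      simp [exec, Function.update_of_ne hx, Function.update_of_ne h1, hR.mem]
  | coin s i d h1 =>
    intro l c hA hR
    refine ⟨_, (Reach.one hR.pc hA.head).mono (by omega), by simp [exec, hR.pc, size],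
      hR.upd d ?_, hR.mem, by simp [exec, hR.drawn]⟩
    rw [hR.drawn]
    split_ifs
    · exact Nat.mod_eq_of_lt (h1.trans_lt hW)
    · simp
  | seq p q s s' s'' i i' i'' t t' _ _ ih ih' =>
    intro l c hA hR
    obtain ⟨c', h1, hR1⟩ := ih l c hA.left hR
    have hA' := hA.right
    rw [length_comp] at hA'
    obtain ⟨c'', h2, hR2⟩ := ih' _ c' hA' hR1
    refine ⟨c'', (h1.trans h2).mono (by omega), ?_⟩
    rw [size, ← Nat.add_assoc]
    exact hR2
  | iteTrue cnd p q s s' i i' t hc _ ih =>
    intro l c hA hR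
    have h0 := Reach.one (ω := ω) hR.pc hA.head
    have hA' := hA.tail.right.tail
    rw [length_comp, show l + 1 + size q + 1 = l + 2 + size q by omega] at hA'
    obtain ⟨c', h1, hR1⟩ := ih _ _ hA' (hR.branch_pos ω hc _)
    refine ⟨c', (h0.trans h1).mono (by omega), ?_⟩
    rw [size, show l + (2 + size q + size p) = l + 2 + size q + size p by omega]
    exact hR1
  | iteFalse cnd p q s s' i i' t hc _ ih =>
    intro l c hA hR
    have h0 := Reach.one (ω := ω) hR.pc hA.head
    obtain ⟨c', h1, hR1⟩ := ih _ _ hA.tail.left (hR.branch_neg ω hc _)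
    have hA' := hA.tail.right.head
    rw [length_comp] at hA'
    refine ⟨_, ((h0.trans h1).trans (Reach.one hR1.pc hA')).mono (by omega), ?_⟩
    rw [size, show l + (2 + size q + size p) = l + 2 + size q + size p by omega]
    exact hR1.jump ω _
  | loopDone cnd p s i hc =>
    intro l c hA hR
    have h0 := Reach.one (ω := ω) hR.pc hA.head
    have hR1 := hR.branch_neg ω hc (l + 2)
    refine ⟨_, (h0.trans (Reach.one hR1.pc hA.tail.head)).mono (by omega), ?_⟩
    rw [size, ← Nat.add_assoc]
    exact hR1.jump ω _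
  | loopStep cnd p s s' s'' i i' i'' t t' hc _ _ ih ih' =>
    intro l c hA hR
    have h0 := Reach.one (ω := ω) hR.pc hA.head
    obtain ⟨c', h1, hR1⟩ := ih _ _ hA.tail.tail.left (hR.branch_pos ω hc _)
    have hA' := hA.tail.tail.right.head
    rw [length_comp] at hA'
    obtain ⟨c'', h2, hR2⟩ := ih' l _ hA (hR1.jump ω l)
    exact ⟨c'', (((h0.trans h1).trans (Reach.one hR1.pc hA')).trans h2).mono (by omega), hR2⟩

end Vale.Agent.P305W88
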