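import Vale.Agent.P305W88.Sim

/-!
# P305: from structured programs to the word RAM, with probabilities
-/

namespace Vale.Agent.P305W88

open Vale.Agent.P305 Vale.Agent.P305.MM MeasureTheory

variable {w : ℕ}

theorem step_halted {P : List Ins} {ω : ℕ → Bool} {c : Cfg w} (h : P.length ≤ c.pc) :
    step P ω c = c := by
  rw [step, List.getElem?_eq_none h]

theorem iter_halted {P : List Ins} {ω : ℕ → Bool} {c : Cfg w} (h : P.length ≤ c.pc) (t : ℕ) :
    (step P ω)^[t] c = c :=
  Function.iterate_fixed (step_halted h) t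

theorem iter_of_halted {P : List Ins} {ω : ℕ → Bool} {c : Cfg w} {u t : ℕ}
    (h : P.length ≤ ((step P ω)^[u] c).pc) (hu : u ≤ t) :
    (step P ω)^[t] c = (step P ω)^[u] c := by
  obtain ⟨v, rfl⟩ := Nat.exists_eq_add_of_le' hu
  rw [Function.iterate_add_apply, iter_halted h]

theorem iter_unique {P : List Ins} {ω : ℕ → Bool} {c : Cfg w} {u t : ℕ}
    (h : P.length ≤ ((step P ω)^[u] c).pc) (h' : P.length ≤ ((step P ω)^[t] c).pc) :
    (step P ω)^[t] c = (step P ω)^[u] c := by
  rcases le_total u t with hu | hu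
  · exact iter_of_halted h hu
  · exact (iter_of_halted h' hu).symm

theorem step_drawn (P : List Ins) (ω : ℕ → Bool) (c : Cfg w) :
    (step P ω c).drawn ≤ c.drawn + 1 := by
  unfold step
  split
  · rename_i i _
    cases i <;> simp [exec]
  · omega

theorem step_congr (P : List Ins) {ω ω' : ℕ → Bool} (c : Cfg w) (h : ω c.drawn = ω' c.drawn) :
    step P ω c = step P ω' c := by
  unfold step
  split
  · rename_i i _
    cases i <;> simp [exec, h]
  · rfl

theorem iter_congr (P : List Ins) {ω ω' : ℕ → Bool} (t : ℕ) : ∀ c : Cfg w,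
    (∀ j < c.drawn + t, ω j = ω' j) → (step P ω)^[t] c = (step P ω')^[t] c := by
  induction t with
  | zero => intro c _; rfl
  | succ t ih =>
    intro c h
    rw [Function.iterate_succ_apply, Function.iterate_succ_apply,
      ← step_congr P c (h _ (by omega))]
    refine ih _ fun j hj => h j ?_
    have := step_drawn P ω c
    omega

/-- the first `B` bits -/
def res (B : ℕ) (ω : ℕ → Bool) : Fin B → Bool := fun j => ω j

theorem run_res (P : List Ins) (ω : ℕ → Bool) (input : List ℕ) (B : ℕ) :
    run w P ω input B = run w P (MM.extend (res B ω)) input B :=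
  iter_congr P B _ fun j hj => by
    have hj' : j < B := by simpa using hj
    simp [MM.extend, res, hj']

theorem measurable_res (B : ℕ) : Measurable (res B) :=
  measurable_pi_lambda _ fun _ => measurable_pi_apply _

theorem coins_single {B : ℕ} (a : Fin B → Bool) : coins (res B ⁻¹' {a}) = (2 ^ B : ENNReal)⁻¹ := by
  have h1 : res B ⁻¹' {a} = Set.pi (Finset.range B) fun j => {MM.extend a j} := by
    ext ω
    simp only [Set.mem_preimage, Set.mem_singleton_iff, Set.mem_pi, Finset.coe_range,
      Set.mem_Iio]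
    constructor
    · rintro rfl j hj
      simp [MM.extend, res, hj]
    · intro h
      funext j
      have := h j j.2
      simpa [MM.extend, res] using this
  rw [h1, coins, Measure.infinitePi_pi _ fun _ _ => measurableSet_singleton _]
  simp [PMF.toMeasure_apply_singleton, ENNReal.inv_pow]

theorem coins_ge {B : ℕ} (A : Set (Fin B → Bool)) (h : 2 * 2 ^ B ≤ 3 * Nat.card A) :
    2 / 3 ≤ coins (res B ⁻¹' A) := by
  classical
  have h1 := sum_measure_preimage_singleton (μ := coins) A.toFinset (f := res B)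
    fun a _ => measurable_res B (measurableSet_singleton a)
  rw [Set.coe_toFinset] at h1
  rw [← h1]
  simp only [coins_single, Finset.sum_const, nsmul_eq_mul]
  rw [Nat.card_eq_card_toFinset] at h
  have h2 : (2 * 2 ^ B : ENNReal) ≤ 3 * (A.toFinset.card : ENNReal) := by exact_mod_cast h
  rw [← div_eq_mul_inv, ENNReal.div_le_iff (by norm_num) (by norm_num), mul_comm,
    ← mul_div_assoc, ENNReal.le_div_iff_mul_le (Or.inl (by positivity))
      (Or.inl (ENNReal.pow_ne_top (by norm_num)))]
  exact h2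

theorem edges_le {n : ℕ} (G : SimpleGraph (Fin n)) : G.edgeSet.ncard ≤ n * n := by
  refine (Set.ncard_le_card _).trans ?_
  refine (Nat.card_le_card_of_surjective (fun p : Fin n × Fin n => s(p.1, p.2)) ?_).trans ?_
  · intro e
    induction e using Sym2.ind with
    | _ a b => exact ⟨(a, b), rfl⟩
  · simp

theorem upTo_le {n : ℕ} {G : SimpleGraph (Fin n)} (L : AdjLists G) (k : ℕ) :
    (L.upTo k).length ≤ n * n := by
  rw [AdjLists.upTo, List.length_flatMap]
  refine (List.sum_le_card_nsmul _ n ?_).trans ?_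
  · intro x hx
    obtain ⟨v, -, rfl⟩ := List.mem_map.1 hx
    simpa using (L.nodup v).length_le_card
  · simp only [List.length_map, List.length_take, List.length_finRange, smul_eq_mul]
    exact Nat.mul_le_mul_right _ (min_le_right _ _)

theorem fits {n : ℕ} {G : SimpleGraph (Fin n)} (L : AdjLists G) :
    L.encode.length ≤ (n + 2) ^ 2 ∧ ∀ x ∈ L.encode, x < (n + 2) ^ 2 := by
  constructor
  · have := upTo_le L n
    simp only [AdjLists.encode, List.length_cons, List.length_append, List.length_map,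
      List.length_range]
    nlinarith
  · intro x hx
    simp only [AdjLists.encode, List.mem_cons, List.mem_append, List.mem_map] at hx
    rcases hx with rfl | ⟨k, -, rfl⟩ | ⟨v, -, rfl⟩
    · nlinarith
    · have := upTo_le L k
      nlinarith
    · have := v.2
      nlinarith

theorem length_encode {n : ℕ} {G : SimpleGraph (Fin n)} (L : AdjLists G) :
    L.encode.length = n + 2 + 2 * G.edgeSet.ncard := by
  classical
  have h1 : (L.upTo n).length = ∑ v, G.degree v := by
    rw [AdjLists.upTo, List.take_of_length_le (by simp), List.length_flatMap, Fin.sum_univ_def]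
    congr 1
    refine List.map_congr_left fun v _ => ?_
    rw [← List.toFinset_card_of_nodup (L.nodup v), ← SimpleGraph.card_neighborFinset_eq_degree]
    congr 1
    ext u
    simp [L.mem_iff]
  have h2 : G.edgeSet.ncard = G.edgeFinset.card := by
    rw [← SimpleGraph.coe_edgeFinset, Set.ncard_coe_finset]
  rw [SimpleGraph.sum_degrees_eq_twice_card_edges] at h1
  simp only [AdjLists.encode, List.length_cons, List.length_append, List.length_map,
    List.length_range, h1, h2]
  omega

theorem lower {P : List Ins} {k : ℕ} {T : ℕ → ℕ → ℕ} (h : Solves P k T) {n : ℕ}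
    (G : SimpleGraph (Fin n)) : n + G.edgeSet.ncard ≤ T n G.edgeSet.ncard := by
  classical
  let L : AdjLists G := ⟨fun v => (G.neighborFinset v).toList, fun v => Finset.nodup_toList _,
    fun u v => by simp⟩
  obtain ⟨-, t, ht, -⟩ := h n G L ((n + 2) ^ k) Nat.lt_two_pow_self.le
  rw [length_encode] at ht
  omega

theorem solves {p : RProg} {T : ℕ → ℕ → ℕ} (h : RandSolves p T) :
    ∃ k, Solves (comp p 0) k fun n m => n + 2 + 2 * m + 3 * T n m + n := by
  obtain ⟨k, h⟩ := h
  refine ⟨2 * k + 2, fun n G L w hw => ?_⟩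
  obtain ⟨h1, h2⟩ := h n G L
  set m := G.edgeSet.ncard with hm
  have hpos : 0 < (n + 2) ^ (2 * k) := by positivity
  have h2w : (n + 2) ^ 2 ≤ 2 ^ w := le_trans (Nat.pow_le_pow_right (by omega) (by omega)) hw
  have hW : (n + m + 2) ^ k < 2 ^ w := by
    have h3 : n + m + 2 ≤ (n + 2) ^ 2 := by
      have := edges_le G
      nlinarith
    calc (n + m + 2) ^ k ≤ ((n + 2) ^ 2) ^ k := Nat.pow_le_pow_left h3 k
      _ = (n + 2) ^ (2 * k) := by rw [← pow_mul]
      _ < (n + 2) ^ (2 * k + 2) := Nat.pow_lt_pow_right (by omega) (by omega)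
      _ ≤ 2 ^ w := hw
  have hfit : ∀ x ∈ L.encode, x < 2 ^ w := fun x hx => ((fits L).2 x hx).trans_le h2w
  set c0 : Cfg w := ⟨0, fun _ => 0, fun a => BitVec.ofNat w (L.encode.getD a.toNat 0), 0⟩ with hc0
  have hR : Rel c0 (State.init L.encode) 0 0 := by
    refine ⟨rfl, fun r => by simp [hc0, State.init], fun a => ?_, rfl⟩
    simp only [hc0, State.init, BitVec.toNat_ofNat]
    refine Nat.mod_eq_of_lt ?_
    by_cases ha : a.toNat < L.encode.length
    · rw [List.getD_eq_getElem _ _ ha]
      exact hfit _ (List.getElem_mem ha)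
    · rw [List.getD_eq_default _ _ (not_lt.1 ha)]
      exact Nat.two_pow_pos w
  have hA : At (comp p 0) 0 (comp p 0) := fun j _ => by rw [Nat.zero_add]
  have halt : ∀ ω, (comp p 0).length ≤ (run w (comp p 0) ω L.encode (3 * T n m)).pc := by
    intro ω
    obtain ⟨t, s, i, he, ht⟩ := h1 ω
    obtain ⟨c', ⟨u, hu, hc'⟩, hR'⟩ := sim hW he 0 c0 hA hR
    have h3 : (comp p 0).length ≤ ((step (comp p 0) ω)^[u] c0).pc := by
      rw [hc', hR'.pc, length_comp, Nat.zero_add]
    have h4 := iter_of_halted h3 (show u ≤ 3 * T n m by omega)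
    rw [run, h4]
    exact h3
  have hE : {ω | Outputs G (run w (comp p 0) ω L.encode (3 * T n m))} = res (3 * T n m) ⁻¹'
      {a | Outputs G (run w (comp p 0) (MM.extend a) L.encode (3 * T n m))} := by
    ext ω
    rw [Set.mem_preimage, Set.mem_setOf_eq, Set.mem_setOf_eq, ← run_res]
  refine ⟨⟨(fits L).1.trans h2w, hfit⟩, 3 * T n m, (by rw [length_encode]), halt, ?_, ?_⟩
  · rw [hE]
    exact measurable_res _ (Set.toFinite _).measurableSet
  · rw [hE]
    refine coins_ge _ ((h2 (3 * T n m) (by omega)).trans (Nat.mul_le_mul_left _ ?_))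
    refine Nat.card_mono (Set.toFinite _) ?_
    rintro a ⟨t, s, i, M, he, hM, hrep⟩
    obtain ⟨c', ⟨u, -, hc'⟩, hR'⟩ := sim hW he 0 c0 hA hR
    have h3 : (comp p 0).length ≤ ((step (comp p 0) (MM.extend a))^[u] c0).pc := by
      rw [hc', hR'.pc, length_comp, Nat.zero_add]
    have h4 := iter_unique h3 (halt (MM.extend a))
    refine ⟨M, hM, fun v => ?_⟩
    have h5 : ((run w (comp p 0) (MM.extend a) L.encode (3 * T n m)).mem
        (BitVec.ofNat w v)).toNat = s.mem v := by
      rw [run, h4, hc', hR'.mem, BitVec.toNat_ofNat, Nat.mod_eq_of_lt]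
      have := v.2
      nlinarith
    simp only [h5]
    exact hrep v

theorem almost {T : ℕ → ℕ → ℕ}
    (h : ∀ ε : ℝ, 0 < ε → ∃ C : ℝ, ∀ n m : ℕ, (T n m : ℝ) ≤ C * ((n : ℝ) + m + 1) ^ (1 + ε))
    (ε : ℝ) (hε : 0 < ε) : ∃ C : ℝ, ∀ n m : ℕ,
      ((n + 2 + 2 * m + 3 * T n m + n : ℕ) : ℝ) ≤ C * ((n : ℝ) + m + 1) ^ (1 + ε) := by
  obtain ⟨C, hC⟩ := h ε hε
  refine ⟨2 + 3 * C, fun n m => ?_⟩
  have h0 : (0 : ℝ) ≤ n := Nat.cast_nonneg n
  have h1 : (0 : ℝ) ≤ m := Nat.cast_nonneg m
  have h2 : (n : ℝ) + m + 1 ≤ ((n : ℝ) + m + 1) ^ (1 + ε) :=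
    Real.self_le_rpow_of_one_le (by linarith) (by linarith)
  have h3 := hC n m
  push_cast
  nlinarith

end Vale.Agent.P305W88
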